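import Mathlib

/-!
# P052, discrete route (helper353): definitions

Tuples of points are lists, chains are lists of lists, cochains are functions on lists with
values in `ZMod 2`.  A colouring `Col n N` of the unit vectors of `ℝ^n` by `N` colours without
nearly orthogonal pairs of the same colour, closed colour classes, symmetric operators, labels.
-/

namespace P052D

open scoped RealInnerProductSpace
open Module

/-! ## tuples are lists; chains are lists of lists; cochains are functions -/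

/-- coboundary (boundary of the list, evaluated at `φ`) mod 2 -/
def dl {V : Type*} (φ : List V → ZMod 2) (l : List V) : ZMod 2 :=
  ∑ i ∈ Finset.range l.length, φ (l.eraseIdx i)

/-- evaluation of a cochain on a chain -/
def ev {V : Type*} (φ : List V → ZMod 2) (c : List (List V)) : ZMod 2 :=
  (c.map φ).sum

/-- fine antipodal chains of dimension `0, …, N-1` on the unit sphere of `V` -/
structure Hemi (V : Type*) [NormedAddCommGroup V] (N : ℕ) (δ : ℝ) where
  h : ℕ → List (List V)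
  len : ∀ k < N, ∀ l ∈ h k, l.length = k + 1
  unit : ∀ k < N, ∀ l ∈ h k, ∀ x ∈ l, ‖x‖ = 1
  mesh : ∀ k < N, ∀ l ∈ h k, ∀ x ∈ l, ∀ y ∈ l, ‖x - y‖ < δ
  zero : ∃ p, h 0 = [[p]]
  bd : ∀ k, k + 1 < N → ∀ φ : List V → ZMod 2,
    ev (dl φ) (h (k + 1)) = ev φ (h k) + ev (fun l => φ (l.map Neg.neg)) (h k)

/-- the cycle `(1 + τ) h_k` -/
def Hemi.Z {V : Type*} [NormedAddCommGroup V] {N : ℕ} {δ : ℝ} (H : Hemi V N δ) (k : ℕ) :
    List (List V) := H.h k ++ (H.h k).map (List.map Neg.neg)

/-- labels: a sign (`true` = plus) and a colour -/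
abbrev Lb (N : ℕ) := Bool × Fin N

/-- alternating multisets of labels: different colours, signs alternate in the order of the
colours, the sign of the smallest colour is `b` -/
def Alt {N : ℕ} (b : Bool) (s : Multiset (Lb N)) : Prop :=
  (s.map Prod.snd).Nodup ∧
    ∀ x ∈ s, x.1 = (b ^^ decide (Odd ((s.filter (fun y => y.2 < x.2)).card)))

/-- the full label set with signs `σ` -/
def full {N : ℕ} (σ : Fin N → Bool) : Multiset (Lb N) :=
  (Finset.univ : Finset (Fin N)).val.map (fun i => (σ i, i))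

/-! ## colourings -/

abbrev E (n : ℕ) := EuclideanSpace ℝ (Fin n)

/-- colouring of the unit vectors, even, no two orthogonal (or nearly orthogonal) vectors have
the same colour -/
structure Col (n N : ℕ) where
  c : E n → Fin N
  even : ∀ x, ‖x‖ = 1 → c (-x) = c x
  ε : ℝ
  ε_pos : 0 < ε
  sep : ∀ x y, ‖x‖ = 1 → ‖y‖ = 1 → c x = c y → ε < |⟪x, y⟫|

/-- closed colour classes -/
def Col.F {n N : ℕ} (C : Col n N) (i : Fin N) : Set (E n) := closure {x | ‖x‖ = 1 ∧ C.c x = i}

/-- colours met by a subspace -/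
def Col.cs {n N : ℕ} (C : Col n N) (U : Submodule ℝ (E n)) : Set (Fin N) :=
  {i | ∃ y ∈ U, y ∈ C.F i}

/-- symmetric operators -/
def S (n : ℕ) : Submodule ℝ (E n →L[ℝ] E n) where
  carrier := {A | ∀ x y, ⟪A x, y⟫ = ⟪x, A y⟫}
  add_mem' := by
    intro A B hA hB x y
    simp only [_root_.add_apply, inner_add_left, inner_add_right, hA x y, hB x y]
  zero_mem' := by intro x y; simp
  smul_mem' := by
    intro r A hA x y
    simp only [_root_.smul_apply, real_inner_smul_left, real_inner_smul_right,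
      hA x y]

/-- labelling of the nonzero symmetric operators -/
structure Lab {n N : ℕ} (C : Col n N) where
  sg : S n → Bool
  v : S n → E n
  w : Fin N → E n
  unit : ∀ A : S n, A ≠ 0 → ‖v A‖ = 1
  eig : ∀ A : S n, A ≠ 0 → A.1 (v A) = ((if sg A then 1 else -1) * ‖A‖) • v A
  neg_v : ∀ A : S n, A ≠ 0 → v (-A) = v A
  neg_sg : ∀ A : S n, A ≠ 0 → sg (-A) = !(sg A)
  w_unit : ∀ A : S n, A ≠ 0 → ‖w (C.c (v A))‖ = 1
  w_col : ∀ A : S n, A ≠ 0 → C.c (w (C.c (v A))) = C.c (v A)
  w_pos : ∀ A : S n, A ≠ 0 → 0 < ⟪v A, w (C.c (v A))⟫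

/-- the label -/
def Lab.lb {n N : ℕ} {C : Col n N} (L : Lab C) (A : S n) : Lb N := (L.sg A, C.c (L.v A))

/-! ## the finite part -/

/-- the triple function of a two-graph -/
def tt {N : ℕ} (s : Fin N → Fin N → ZMod 2) (x y z : Fin N) : ZMod 2 := s x y + s y z + s x z

/-- coherent sets -/
def Coh {N : ℕ} (s : Fin N → Fin N → ZMod 2) (Q : Finset (Fin N)) : Prop :=
  ∀ x ∈ Q, ∀ y ∈ Q, ∀ z ∈ Q, tt s x y z = 0

/-- conclusion of the key lemma -/
structure Key {n N : ℕ} (C : Col n N) where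
  G : E n → ZMod 2
  s : Fin N → Fin N → ZMod 2
  δ : ℝ
  δ_pos : 0 < δ
  s_self : ∀ a, s a a = 0
  s_symm : ∀ a b, s a b = s b a
  G_neg : ∀ u, ‖u‖ = 1 → G (-u) = G u + 1
  G_add : ∀ u u', ‖u‖ = 1 → ‖u'‖ = 1 → ‖u - u'‖ < δ → G u + G u' = s (C.c u) (C.c u')

end P052D
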