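import Vale.Agent.P052.R2.H353.KeyLemma

/-!
# P052, module M5: the key lemma from the statements of the other modules
-/

namespace P052D

open scoped RealInnerProductSpace
open Module

/-- the unit sphere cycle -/
lemma Hemi.mem_Z {V : Type*} [NormedAddCommGroup V] {N : ℕ} {δ : ℝ} (H : Hemi V N δ) {k : ℕ}
    (hk : k < N) {l : List V} (hl : l ∈ H.Z k) :
    l.length = k + 1 ∧ (∀ x ∈ l, ‖x‖ = 1) ∧ (∀ x ∈ l, ∀ y ∈ l, ‖x - y‖ < δ) := by
  unfold Hemi.Z at hl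
  rw [List.mem_append] at hl
  rcases hl with hl | hl
  · exact ⟨H.len k hk l hl, H.unit k hk l hl, H.mesh k hk l hl⟩
  · obtain ⟨l', hl', rfl⟩ := List.mem_map.1 hl
    refine ⟨by rw [List.length_map]; exact H.len k hk l' hl', ?_, ?_⟩
    · intro x hx
      obtain ⟨x', hx', rfl⟩ := List.mem_map.1 hx
      rw [norm_neg]
      exact H.unit k hk l' hl' x' hx'
    · intro x hx y hy
      obtain ⟨x', hx', rfl⟩ := List.mem_map.1 hx
      obtain ⟨y', hy', rfl⟩ := List.mem_map.1 hy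
      have := H.mesh k hk l' hl' x' hx' y' hy'
      rw [← norm_neg]
      have e : -(-x' - -y') = x' - y' := by abel
      rwa [e]

/-- `(1 + τ) h_{k+1}` is a cycle -/
lemma Hemi.cycle {V : Type*} [NormedAddCommGroup V] {N : ℕ} {δ : ℝ} (H : Hemi V N δ) {k : ℕ}
    (hk : k + 1 < N) (φ : List V → ZMod 2) : ev (dl φ) (H.Z (k + 1)) = 0 := by
  unfold Hemi.Z
  rw [ev_append, ev_map]
  have h1 : (fun l : List V => dl φ (List.map Neg.neg l)) =
      dl (fun l => φ (l.map Neg.neg)) := by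
    funext l
    exact dl_map φ Neg.neg l
  rw [h1, H.bd k hk φ, H.bd k hk (fun l => φ (l.map Neg.neg))]
  have h2 : (fun l : List V => φ (List.map Neg.neg (List.map Neg.neg l))) = φ := by
    funext l
    congr 1
    rw [List.map_map]
    have : (Neg.neg ∘ Neg.neg : V → V) = id := by funext x; simp
    rw [this, List.map_id]
  rw [h2]
  have : ev φ (H.h k) + ev (fun l => φ (List.map Neg.neg l)) (H.h k) +
      (ev (fun l => φ (List.map Neg.neg l)) (H.h k) + ev φ (H.h k)) =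
      (ev φ (H.h k) + ev φ (H.h k)) + (ev (fun l => φ (List.map Neg.neg l)) (H.h k) +
      ev (fun l => φ (List.map Neg.neg l)) (H.h k)) := by ring
  rw [this, CharTwo.add_self_eq_zero, CharTwo.add_self_eq_zero, add_zero]

lemma norm_ne_zero_of {V : Type*} [NormedAddCommGroup V] {x : V} (h : ‖x‖ = 1) : x ≠ 0 := by
  intro h0
  rw [h0, norm_zero] at h
  exact zero_ne_one h

/-- label is antipodal -/
lemma Lab.lb_neg {n N : ℕ} {C : Col n N} (L : Lab C) (A : S n) (hA : ‖A‖ = 1) :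
    L.lb (-A) = (!(L.lb A).1, (L.lb A).2) := by
  unfold Lab.lb
  rw [L.neg_v A (norm_ne_zero_of hA), L.neg_sg A (norm_ne_zero_of hA)]

/-- the key lemma from the statements of the other modules -/
theorem key_of_modules {n N : ℕ} (C : Col n N) (hN : 2 ≤ N)
    (hemi : ∀ δ : ℝ, 0 < δ → Nonempty (Hemi (S n) N δ))
    (fan_full : ∀ (δ : ℝ) (H : Hemi (S n) N δ) (ℓ : S n → Lb N)
      (_ : ∀ x, ‖x‖ = 1 → ℓ (-x) = (!(ℓ x).1, (ℓ x).2))
      (_ : ∀ x y, ‖x‖ = 1 → ‖y‖ = 1 → ‖x - y‖ < δ → (ℓ x).2 = (ℓ y).2 → (ℓ x).1 = (ℓ y).1)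
      (σ : Fin N → Bool), open Classical in
      ev (fun l => if (l.map ℓ : Multiset (Lb N)) = full σ then (1 : ZMod 2) else 0)
        (H.Z (N - 1)) = 1)
    (L : Lab C)
    (no_compl : ∀ (A B : S n), ‖A‖ = 1 → ‖B‖ = 1 → ‖A - B‖ < C.ε →
      C.c (L.v A) = C.c (L.v B) → L.sg A = L.sg B)
    (close : ∀ (η : ℝ), 0 < η → ∃ μ > 0, ∀ (l : List (S n)) (a b : Fin N),
      (∀ A ∈ l, ‖A‖ = 1) → (∀ A ∈ l, ∀ B ∈ l, ‖A - B‖ < μ) →
      (∀ j, j ≠ a → j ≠ b → (false, j) ∈ l.map L.lb) →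
      ∀ A ∈ l, ∀ B ∈ l, L.sg A = true → L.sg B = true →
        (C.c (L.v A) = a ∨ C.c (L.v A) = b) → (C.c (L.v B) = a ∨ C.c (L.v B) = b) →
        (‖L.v A - L.v B‖ < η ∨ ‖L.v A + L.v B‖ < η) ∧
        (C.c (L.v A) = C.c (L.v B) → ‖L.v A - L.v B‖ < η)) : Nonempty (Key C) := by
  obtain ⟨μ, hμ, hclose⟩ := close C.ε C.ε_pos
  obtain ⟨H⟩ := hemi (min μ C.ε) (lt_min hμ C.ε_pos)
  obtain ⟨k, rfl⟩ : ∃ k, N = k + 2 := ⟨N - 2, by omega⟩
  have hk : k + 1 < k + 2 := by omega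
  have hfine : Fine L (H.Z (k + 1)) := by
    refine ⟨fun φ => H.cycle hk φ, ?_, ?_, ?_, ?_⟩
    · intro l hl A hA
      exact norm_ne_zero_of ((H.mem_Z hk hl).2.1 A hA)
    · intro l hl A hA B hB hc
      obtain ⟨-, h1, h2⟩ := H.mem_Z hk hl
      exact no_compl A B (h1 A hA) (h1 B hB) ((h2 A hA B hB).trans_le (min_le_right _ _)) hc
    · intro l hl a b hj A hA B hB h3 h4 h5 h6
      obtain ⟨-, h1, h2⟩ := H.mem_Z hk hl
      exact hclose l a b h1 (fun A hA B hB => (h2 A hA B hB).trans_le (min_le_left _ _)) hj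
        A hA B hB h3 h4 h5 h6
    · intro σ
      exact fan_full _ H L.lb (fun x hx => L.lb_neg x hx) (fun x y hx hy hxy hc =>
        no_compl x y hx hy (hxy.trans_le (min_le_right _ _)) hc) σ
  exact hfine.key

end P052D
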