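import Vale.Agent.P052.R2.H353.Defs

/-!
# P052, module M5: the key lemma, from a fine cycle of labelled tuples
-/

namespace P052D

open scoped RealInnerProductSpace
open Module

section chains

variable {V : Type*}

lemma ev_congr {φ ψ : List V → ZMod 2} {c : List (List V)} (h : ∀ l ∈ c, φ l = ψ l) :
    ev φ c = ev ψ c := by
  unfold ev
  rw [List.map_congr_left h]

lemma ev_add (φ ψ : List V → ZMod 2) (c : List (List V)) :
    ev (fun l => φ l + ψ l) c = ev φ c + ev ψ c := by
  unfold ev
  induction c with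
  | nil => simp
  | cons a t ih =>
    simp only [List.map_cons, List.sum_cons] at ih ⊢
    rw [ih]
    ring

lemma ev_zero (c : List (List V)) : ev (fun _ => 0) c = 0 := by
  unfold ev
  induction c with
  | nil => simp
  | cons a t ih =>
    simp only [List.map_cons, List.sum_cons] at ih ⊢
    rw [ih]
    simp

lemma ev_append (φ : List V → ZMod 2) (c d : List (List V)) :
    ev φ (c ++ d) = ev φ c + ev φ d := by
  unfold ev
  simp

lemma ev_map {W : Type*} (φ : List W → ZMod 2) (f : List V → List W) (c : List (List V)) :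
    ev φ (c.map f) = ev (fun l => φ (f l)) c := by
  unfold ev
  simp only [List.map_map]
  rfl

lemma dl_map {W : Type*} (φ : List W → ZMod 2) (f : V → W) (l : List V) :
    dl φ (l.map f) = dl (fun l => φ (l.map f)) l := by
  unfold dl
  simp only [List.length_map]
  refine Finset.sum_congr rfl fun i _ => ?_
  rw [List.eraseIdx_map]

lemma sum_map_fin (f : V → ZMod 2) (l : List V) :
    (l.map f).sum = ∑ i : Fin l.length, f l[i] := by
  rw [← List.sum_ofFn]
  congr 1
  apply List.ext_getElem
  · simp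
  · intro i h1 h2
    simp

/-- for symmetric cochains the coboundary is a sum over the elements -/
lemma dl_multiset [DecidableEq V] (φ : Multiset V → ZMod 2) (l : List V) :
    dl (fun l => φ (l : Multiset V)) l =
      ((l : Multiset V).map (fun x => φ ((l : Multiset V).erase x))).sum := by
  unfold dl
  have h1 : ((l : Multiset V).map (fun x => φ ((l : Multiset V).erase x))).sum =
      (l.map (fun x => φ ((l : Multiset V).erase x))).sum := by
    simp
  rw [h1]
  have h2 : (l.map (fun x => φ ((l : Multiset V).erase x))).sum =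
      ∑ i : Fin l.length, φ ((l : Multiset V).erase l[i]) := sum_map_fin _ l
  rw [h2, Finset.sum_range]
  refine Finset.sum_congr rfl fun i _ => ?_
  have h3 : (l[i] ::ₘ (l.eraseIdx i : Multiset V)) = (l : Multiset V) := by
    rw [Multiset.cons_coe]
    exact Multiset.coe_eq_coe.2 (List.getElem_cons_eraseIdx_perm i.2)
  have h4 : (l.eraseIdx i : Multiset V) = (l : Multiset V).erase l[i] := by
    rw [← h3, Multiset.erase_cons_head]
  show φ _ = φ _
  rw [h4]

/-- the door lemma -/
lemma door {Λ : Type*} [DecidableEq V] [DecidableEq Λ] (lb : V → Λ) (g : V → ZMod 2)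
    (Θ : Multiset Λ) (hΘ : Θ.Nodup) (a : Λ) (ha : a ∈ Θ) (m : Multiset V)
    (hg : Θ ≤ m.map lb → ∀ x ∈ m, ∀ y ∈ m, lb x = a → lb y = a → g x = g y) :
    (m.map (fun x => if (m.erase x).map lb = Θ then
      (((m.erase x).filter (fun y => lb y = a)).map g).sum else 0)).sum =
    open Classical in
    (if ∃ b, b ∉ Θ ∧ m.map lb = b ::ₘ Θ then ((m.filter (fun y => lb y = a)).map g).sum
      else 0) := by
  classical
  by_cases hx : ∃ x ∈ m, (m.erase x).map lb = Θ
  · obtain ⟨x, hxm, hxe⟩ := hx
    obtain ⟨m', rfl⟩ := Multiset.exists_cons_of_mem hxm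
    rw [Multiset.erase_cons_head] at hxe
    have hmap : (x ::ₘ m').map lb = lb x ::ₘ Θ := by rw [Multiset.map_cons, hxe]
    have hle : Θ ≤ (x ::ₘ m').map lb := by
      rw [hmap]; exact Multiset.le_cons_self _ _
    have hterm : ∀ y ∈ m', ((x ::ₘ m').erase y) = x ::ₘ (m'.erase y) := by
      intro y hy
      by_cases hyx : y = x
      · subst hyx
        rw [Multiset.erase_cons_head, Multiset.cons_erase hy]
      · rw [Multiset.erase_cons_tail _ (Ne.symm hyx)]
    have hmapterm : ∀ y ∈ m', (x ::ₘ (m'.erase y)).map lb = lb x ::ₘ (Θ.erase (lb y)) := by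
      intro y hy
      rw [Multiset.map_cons, Multiset.map_erase_of_mem _ _ hy, hxe]
    rw [Multiset.map_cons, Multiset.sum_cons, Multiset.erase_cons_head, if_pos hxe]
    by_cases hxT : lb x ∈ Θ
    · -- repeated label
      have hRHS : ¬ ∃ b, b ∉ Θ ∧ (x ::ₘ m').map lb = b ::ₘ Θ := by
        rintro ⟨b, hb, hbe⟩
        rw [hmap] at hbe
        have : lb x = b := by
          have := congrArg (fun s => s - Θ) hbe
          simpa using (Multiset.cons_inj_left Θ).1 hbe
        exact hb (this ▸ hxT)
      rw [if_neg hRHS]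
      rw [← hxe] at hxT
      obtain ⟨y, hy, hyx⟩ := Multiset.mem_map.1 hxT
      obtain ⟨m'', rfl⟩ := Multiset.exists_cons_of_mem hy
      have hnd : ((y ::ₘ m'').map lb).Nodup := by rw [hxe]; exact hΘ
      rw [Multiset.map_cons, Multiset.nodup_cons] at hnd
      have hrest : ∀ z ∈ m'', ¬ (((x ::ₘ (y ::ₘ m'')).erase z).map lb = Θ) := by
        intro z hz h
        rw [hterm z (Multiset.mem_cons_of_mem hz), hmapterm z (Multiset.mem_cons_of_mem hz)] at h
        have h1 : lb x ∈ Θ.erase (lb z) := by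
          have hzx : lb x ≠ lb z := by
            rw [← hyx]
            intro h2
            exact hnd.1 (h2 ▸ Multiset.mem_map_of_mem _ hz)
          rw [Multiset.mem_erase_of_ne hzx, ← hxe, ← hyx]
          exact Multiset.mem_map_of_mem _ (Multiset.mem_cons_self _ _)
        have h2 : (lb x ::ₘ Θ.erase (lb z)).Nodup := by rw [h]; exact hΘ
        exact (Multiset.nodup_cons.1 h2).1 h1
      have hzero : (m''.map (fun z => if ((x ::ₘ (y ::ₘ m'')).erase z).map lb = Θ then
          ((((x ::ₘ (y ::ₘ m'')).erase z).filter (fun y => lb y = a)).map g).sum else 0)).sum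
          = 0 := by
        apply Multiset.sum_eq_zero
        intro w hw
        obtain ⟨z, hz, rfl⟩ := Multiset.mem_map.1 hw
        rw [if_neg (hrest z hz)]
      rw [Multiset.map_cons, Multiset.sum_cons, hzero, add_zero]
      have hye : ((x ::ₘ (y ::ₘ m'')).erase y) = x ::ₘ m'' := by
        rw [hterm y (Multiset.mem_cons_self _ _), Multiset.erase_cons_head]
      have hyT : ((x ::ₘ (y ::ₘ m'')).erase y).map lb = Θ := by
        rw [hye, Multiset.map_cons, ← hyx, ← Multiset.map_cons, hxe]
      rw [if_pos hyT, hye]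
      by_cases hxa : lb x = a
      · have hya : lb y = a := by rw [hyx, hxa]
        rw [Multiset.filter_cons_of_pos (p := fun y => lb y = a) _ hya, Multiset.filter_cons_of_pos (p := fun y => lb y = a) _ hxa]
        have := hg hle x (Multiset.mem_cons_self _ _) y
          (Multiset.mem_cons_of_mem (Multiset.mem_cons_self _ _)) hxa hya
        simp only [Multiset.map_cons, Multiset.sum_cons]
        rw [this]
        exact CharTwo.add_self_eq_zero _
      · have hya : ¬ lb y = a := by rw [hyx]; exact hxa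
        rw [Multiset.filter_cons_of_neg (p := fun y => lb y = a) _ hya, Multiset.filter_cons_of_neg (p := fun y => lb y = a) _ hxa]
        exact CharTwo.add_self_eq_zero _
    · -- new label
      have hRHS : ∃ b, b ∉ Θ ∧ (x ::ₘ m').map lb = b ::ₘ Θ := ⟨lb x, hxT, hmap⟩
      rw [if_pos hRHS]
      have hrest : ∀ z ∈ m', ¬ (((x ::ₘ m').erase z).map lb = Θ) := by
        intro z hz h
        rw [hterm z hz, hmapterm z hz] at h
        exact hxT (h ▸ Multiset.mem_cons_self _ _)
      have hzero : (m'.map (fun z => if ((x ::ₘ m').erase z).map lb = Θ then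
          ((((x ::ₘ m').erase z).filter (fun y => lb y = a)).map g).sum else 0)).sum
          = 0 := by
        apply Multiset.sum_eq_zero
        intro w hw
        obtain ⟨z, hz, rfl⟩ := Multiset.mem_map.1 hw
        rw [if_neg (hrest z hz)]
      rw [hzero, add_zero]
      have hxa : ¬ lb x = a := fun h => hxT (h ▸ ha)
      rw [Multiset.filter_cons_of_neg (p := fun y => lb y = a) _ hxa]
  · push Not at hx
    have hzero : (m.map (fun x => if (m.erase x).map lb = Θ then
      (((m.erase x).filter (fun y => lb y = a)).map g).sum else 0)).sum = 0 := by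
      apply Multiset.sum_eq_zero
      intro w hw
      obtain ⟨z, hz, rfl⟩ := Multiset.mem_map.1 hw
      rw [if_neg (hx z hz)]
    rw [hzero]
    rw [if_neg]
    rintro ⟨b, hb, hbe⟩
    have : b ∈ m.map lb := by rw [hbe]; exact Multiset.mem_cons_self _ _
    obtain ⟨x, hxm, rfl⟩ := Multiset.mem_map.1 this
    apply hx x hxm
    rw [Multiset.map_erase_of_mem _ _ hxm, hbe, Multiset.erase_cons_head]

end chains

/-! ## signs -/

open Classical in
/-- `1` if the inner product is negative -/
noncomputable def es {n : ℕ} (u v : E n) : ZMod 2 := if ⟪u, v⟫ < 0 then 1 else 0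

lemma inner_diff {n : ℕ} (u u' v v' : E n) (hv : ‖v‖ = 1) (hu' : ‖u'‖ = 1) :
    |⟪u, v⟫ - ⟪u', v'⟫| ≤ ‖u - u'‖ + ‖v - v'‖ := by
  have h1 : ⟪u, v⟫ - ⟪u', v'⟫ = ⟪u - u', v⟫ + ⟪u', v - v'⟫ := by
    rw [inner_sub_left, inner_sub_right]; ring
  rw [h1]
  refine (abs_add_le _ _).trans (add_le_add ?_ ?_)
  · have := abs_real_inner_le_norm (u - u') v
    rwa [hv, mul_one] at this
  · have := abs_real_inner_le_norm u' (v - v')
    rwa [hu', one_mul] at this

lemma es_eq {n : ℕ} {u v u' v' : E n} {ε : ℝ} (h1 : ε < |⟪u, v⟫|) (h2 : ε < |⟪u', v'⟫|)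
    (h : |⟪u, v⟫ - ⟪u', v'⟫| < 2 * ε) : es u v = es u' v' := by
  unfold es
  rw [abs_lt] at h
  rcases lt_abs.1 h1 with h1 | h1 <;> rcases lt_abs.1 h2 with h2 | h2
  · rw [if_neg (by linarith), if_neg (by linarith)]
  · exfalso; linarith
  · exfalso; linarith
  · rw [if_pos (by linarith), if_pos (by linarith)]

lemma es_neg_left {n : ℕ} {u v : E n} {ε : ℝ} (hε : 0 < ε) (h1 : ε < |⟪u, v⟫|) :
    es (-u) v = es u v + 1 := by
  unfold es
  rw [inner_neg_left]
  rcases lt_abs.1 h1 with h1 | h1
  · rw [if_pos (by linarith), if_neg (by linarith)]; rfl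
  · rw [if_neg (by linarith), if_pos (by linarith)]; rfl

lemma es_neg_right {n : ℕ} {u v : E n} {ε : ℝ} (hε : 0 < ε) (h1 : ε < |⟪u, v⟫|) :
    es u (-v) = es u v + 1 := by
  unfold es
  rw [inner_neg_right]
  rcases lt_abs.1 h1 with h1 | h1
  · rw [if_pos (by linarith), if_neg (by linarith)]; rfl
  · rw [if_neg (by linarith), if_pos (by linarith)]; rfl

/-! ## label multisets -/

section labels

variable {N : ℕ}

/-- plus sign exactly at `a` -/
def pl (a : Fin N) : Fin N → Bool := fun i => decide (i = a)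

/-- plus sign exactly at `a` and `b` -/
def pl2 (a b : Fin N) : Fin N → Bool := fun i => decide (i = a ∨ i = b)

/-- door labels `(a | all but a, b)` -/
def dr (a b : Fin N) : Multiset (Lb N) :=
  ((Finset.univ : Finset (Fin N)).erase b).val.map (fun i => (pl a i, i))

lemma full_erase (σ : Fin N → Bool) (b : Fin N) :
    full σ = (σ b, b) ::ₘ ((Finset.univ : Finset (Fin N)).erase b).val.map (fun i => (σ i, i)) := by
  unfold full
  conv_lhs => rw [← Finset.insert_erase (Finset.mem_univ b)]
  rw [Finset.insert_val_of_notMem (Finset.notMem_erase _ _), Multiset.map_cons]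

lemma full_pl {a b : Fin N} (hab : a ≠ b) : full (pl a) = (false, b) ::ₘ dr a b := by
  rw [full_erase (pl a) b]
  have : pl a b = false := by simp [pl, hab.symm]
  rw [this]
  rfl

lemma full_pl2 {a b : Fin N} : full (pl2 a b) = (true, b) ::ₘ dr a b := by
  rw [full_erase (pl2 a b) b]
  have : pl2 a b b = true := by simp [pl2]
  rw [this]
  congr 1
  unfold dr
  refine Multiset.map_congr rfl fun i hi => ?_
  have hib : i ≠ b := (Finset.mem_erase.1 (Finset.mem_def.2 hi)).1
  simp [pl2, pl, hib]

lemma full_nodup (σ : Fin N → Bool) : (full σ).Nodup := by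
  unfold full
  refine Multiset.Nodup.map (fun i j h => ?_) Finset.univ.nodup
  exact (Prod.ext_iff.1 h).2

lemma dr_nodup (a b : Fin N) : (dr a b).Nodup := by
  unfold dr
  refine Multiset.Nodup.map (fun i j h => ?_) (Finset.nodup _)
  exact (Prod.ext_iff.1 h).2

lemma mem_full {σ : Fin N → Bool} {x : Lb N} : x ∈ full σ ↔ x.1 = σ x.2 := by
  unfold full
  rw [Multiset.mem_map]
  constructor
  · rintro ⟨i, -, rfl⟩; rfl
  · intro h
    exact ⟨x.2, Finset.mem_def.1 (Finset.mem_univ _), by rw [← h]⟩

lemma mem_dr {a b : Fin N} {x : Lb N} : x ∈ dr a b ↔ x.2 ≠ b ∧ x.1 = pl a x.2 := by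
  unfold dr
  rw [Multiset.mem_map]
  constructor
  · rintro ⟨i, hi, rfl⟩
    exact ⟨(Finset.mem_erase.1 (Finset.mem_def.2 hi)).1, rfl⟩
  · rintro ⟨h1, h2⟩
    exact ⟨x.2, Finset.mem_def.1 (Finset.mem_erase.2 ⟨h1, Finset.mem_univ _⟩), by rw [← h2]⟩

end labels

/-! ## the weighted counts -/

section key

variable {n N : ℕ} {C : Col n N} (L : Lab C)

/-- sum of `g` over the vertices with label `(+, a)` -/
noncomputable def wsum (a : Fin N) (g : S n → ZMod 2) (m : Multiset (S n)) : ZMod 2 :=
  ((m.filter (fun A => L.lb A = (true, a))).map g).sum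

lemma wsum_single {a : Fin N} (g : S n → ZMod 2) {m : Multiset (S n)}
    (hm : (m.map L.lb).Nodup) {A : S n} (hA : A ∈ m) (hAl : L.lb A = (true, a)) :
    wsum L a g m = g A := by
  obtain ⟨m', rfl⟩ := Multiset.exists_cons_of_mem hA
  unfold wsum
  rw [Multiset.filter_cons_of_pos (p := fun A => L.lb A = (true, a)) _ hAl]
  have : m'.filter (fun A => L.lb A = (true, a)) = 0 := by
    rw [Multiset.filter_eq_nil]
    intro B hB hBl
    rw [Multiset.map_cons, Multiset.nodup_cons] at hm
    exact hm.1 (hAl.trans hBl.symm ▸ Multiset.mem_map_of_mem _ hB)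
  rw [this]
  simp

lemma exists_vertex {m : Multiset (S n)} {x : Lb N} (hx : x ∈ m.map L.lb) :
    ∃ A ∈ m, L.lb A = x := by
  obtain ⟨A, h1, h2⟩ := Multiset.mem_map.1 hx
  exact ⟨A, h1, h2⟩

/-- the data of the key lemma -/
structure Fine (Z : List (List (S n))) : Prop where
  cyc : ∀ φ : List (S n) → ZMod 2, ev (dl φ) Z = 0
  ne : ∀ l ∈ Z, ∀ A ∈ l, A ≠ 0
  compl : ∀ l ∈ Z, ∀ A ∈ l, ∀ B ∈ l, C.c (L.v A) = C.c (L.v B) → L.sg A = L.sg B
  close : ∀ l ∈ Z, ∀ a b : Fin N, (∀ j, j ≠ a → j ≠ b → (false, j) ∈ l.map L.lb) →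
      ∀ A ∈ l, ∀ B ∈ l, L.sg A = true → L.sg B = true →
        (C.c (L.v A) = a ∨ C.c (L.v A) = b) → (C.c (L.v B) = a ∨ C.c (L.v B) = b) →
        (‖L.v A - L.v B‖ < C.ε ∨ ‖L.v A + L.v B‖ < C.ε) ∧
        (C.c (L.v A) = C.c (L.v B) → ‖L.v A - L.v B‖ < C.ε)
  odd : ∀ σ : Fin N → Bool, open Classical in
    ev (fun l => if (l.map L.lb : Multiset (Lb N)) = full σ then (1 : ZMod 2) else 0) Z = 1

open Classical in
/-- weighted count of the tuples of type `σ` -/
noncomputable def cnt (Z : List (List (S n))) (σ : Fin N → Bool) (f : List (S n) → ZMod 2) :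
    ZMod 2 :=
  ev (fun l => if (l.map L.lb : Multiset (Lb N)) = full σ then f l else 0) Z

variable {L}

lemma cnt_congr {Z : List (List (S n))} {σ : Fin N → Bool} {f g : List (S n) → ZMod 2}
    (h : ∀ l ∈ Z, (l.map L.lb : Multiset (Lb N)) = full σ → f l = g l) :
    cnt L Z σ f = cnt L Z σ g := by
  unfold cnt
  refine ev_congr fun l hl => ?_
  split_ifs with h1
  · exact h l hl h1
  · rfl

lemma cnt_add {Z : List (List (S n))} {σ : Fin N → Bool} {f g : List (S n) → ZMod 2} :
    cnt L Z σ (fun l => f l + g l) = cnt L Z σ f + cnt L Z σ g := by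
  unfold cnt
  rw [← ev_add]
  refine ev_congr fun l hl => ?_
  split_ifs <;> simp

lemma Fine.door {Z : List (List (S n))} (hZ : Fine L Z) {a b : Fin N} (hab : a ≠ b) {u : E n}
    (hu : ‖u‖ = 1) (hua : C.c u = a) :
    cnt L Z (pl2 a b) (fun l => wsum L a (fun A => es u (L.v A)) l) =
      cnt L Z (pl a) (fun l => wsum L a (fun A => es u (L.v A)) l) := by
  classical
  set g : S n → ZMod 2 := fun A => es u (L.v A) with hg
  let φ : Multiset (S n) → ZMod 2 := fun m => if m.map L.lb = dr a b then wsum L a g m else 0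
  have h0 := hZ.cyc (fun l => φ (l : Multiset (S n)))
  have key : ∀ l ∈ Z, dl (fun l : List (S n) => φ (l : Multiset (S n))) l =
      (if (l.map L.lb : Multiset (Lb N)) = full (pl2 a b) then wsum L a g l else 0) +
      (if (l.map L.lb : Multiset (Lb N)) = full (pl a) then wsum L a g l else 0) := by
    intro l hl
    rw [dl_multiset φ l]
    have hd := P052D.door L.lb g (dr a b) (dr_nodup a b) (true, a)
      (mem_dr.2 ⟨hab, by simp [pl]⟩) (l : Multiset (S n)) ?_
    · refine Eq.trans hd ?_
      unfold wsum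
      by_cases h1 : ((l.map L.lb : List (Lb N)) : Multiset (Lb N)) = full (pl2 a b)
      · have h2 : ¬ ((l.map L.lb : List (Lb N)) : Multiset (Lb N)) = full (pl a) := by
          rw [h1]
          intro h
          have : (true, b) ∈ full (pl a) := h ▸ (mem_full.2 (by simp [pl2]))
          rw [mem_full] at this
          simp [pl, hab.symm] at this
        rw [if_pos h1, if_neg h2, add_zero, if_pos]
        refine ⟨(true, b), fun h => (mem_dr.1 h).1 rfl, ?_⟩
        rw [← full_pl2, ← h1]
        rfl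
      · by_cases h2 : ((l.map L.lb : List (Lb N)) : Multiset (Lb N)) = full (pl a)
        · rw [if_neg h1, if_pos h2, zero_add, if_pos]
          refine ⟨(false, b), fun h => (mem_dr.1 h).1 rfl, ?_⟩
          rw [← full_pl hab, ← h2]
          rfl
        · rw [if_neg h1, if_neg h2, add_zero, if_neg]
          rintro ⟨⟨s, i⟩, hx, hxe⟩
          have hxe' : ((l.map L.lb : List (Lb N)) : Multiset (Lb N)) = (s, i) ::ₘ dr a b := by
            rw [← hxe]; rfl
          by_cases hib : i = b
          · subst hib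
            cases s
            · exact h2 (hxe'.trans (full_pl hab).symm)
            · exact h1 (hxe'.trans full_pl2.symm)
          · have hm1 : (s, i) ∈ (l : Multiset (S n)).map L.lb := by
              rw [hxe]; exact Multiset.mem_cons_self _ _
            have hm2 : (pl a i, i) ∈ (l : Multiset (S n)).map L.lb := by
              rw [hxe]; exact Multiset.mem_cons_of_mem (mem_dr.2 ⟨hib, rfl⟩)
            obtain ⟨A, hA, hAl⟩ := exists_vertex L hm1
            obtain ⟨B, hB, hBl⟩ := exists_vertex L hm2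
            have hcol : C.c (L.v A) = C.c (L.v B) := by
              have e1 := congrArg Prod.snd hAl
              have e2 := congrArg Prod.snd hBl
              simp only [Lab.lb] at e1 e2
              rw [e1, e2]
            have hsg := hZ.compl l hl A (by simpa using hA) B (by simpa using hB) hcol
            have e1 := congrArg Prod.fst hAl
            have e2 := congrArg Prod.fst hBl
            simp only [Lab.lb] at e1 e2
            apply hx
            rw [mem_dr]
            exact ⟨hib, by rw [← e1, ← e2, hsg]⟩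
    · -- constancy
      intro hle A hA B hB hAl hBl
      have e1 := congrArg Prod.fst hAl
      have e2 := congrArg Prod.fst hBl
      have e3 := congrArg Prod.snd hAl
      have e4 := congrArg Prod.snd hBl
      simp only [Lab.lb] at e1 e2 e3 e4
      have hA' : A ∈ l := by simpa using hA
      have hB' : B ∈ l := by simpa using hB
      have hc := (hZ.close l hl a b ?_ A hA' B hB' e1 e2 (Or.inl e3) (Or.inl e4)).2
        (by rw [e3, e4])
      · show es u (L.v A) = es u (L.v B)
        have n1 := L.unit A (hZ.ne l hl A hA')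
        have n2 := L.unit B (hZ.ne l hl B hB')
        refine es_eq (ε := C.ε) (C.sep _ _ hu n1 (by rw [hua, e3]))
          (C.sep _ _ hu n2 (by rw [hua, e4])) ?_
        have := inner_diff u u (L.v A) (L.v B) n1 hu
        rw [sub_self, norm_zero, zero_add] at this
        have hε := C.ε_pos
        linarith
      · intro j hja hjb
        have : (false, j) ∈ (l : Multiset (S n)).map L.lb :=
          Multiset.mem_of_le hle (mem_dr.2 ⟨hjb, by simp [pl, hja]⟩)
        simpa using this
  have h1 : ev (fun l => (if (l.map L.lb : Multiset (Lb N)) = full (pl2 a b) then wsum L a g l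
      else 0) + (if (l.map L.lb : Multiset (Lb N)) = full (pl a) then wsum L a g l else 0)) Z
      = 0 := (ev_congr key).symm.trans h0
  rw [ev_add] at h1
  have h2 : cnt L Z (pl2 a b) (fun l => wsum L a g l) + cnt L Z (pl a) (fun l => wsum L a g l)
      = 0 := by
    unfold cnt
    convert h1 using 3
  exact CharTwo.add_eq_zero.1 h2

variable (L) in
/-- the lifted colour -/
noncomputable def Gf (Z : List (List (S n))) (u : E n) : ZMod 2 :=
  cnt L Z (pl (C.c u)) (fun l => wsum L (C.c u) (fun A => es u (L.v A)) l)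

open Classical in
variable (L) in
/-- relative sign of the two plus vertices -/
noncomputable def tau (a b : Fin N) (l : List (S n)) : ZMod 2 :=
  if ∃ A ∈ l, ∃ B ∈ l, L.lb A = (true, a) ∧ L.lb B = (true, b) ∧ ‖L.v A - L.v B‖ < C.ε then 0
  else 1

lemma tau_symm (a b : Fin N) (l : List (S n)) : tau L a b l = tau L b a l := by
  unfold tau
  have : (∃ A ∈ l, ∃ B ∈ l, L.lb A = (true, a) ∧ L.lb B = (true, b) ∧
      ‖L.v A - L.v B‖ < C.ε) ↔ (∃ A ∈ l, ∃ B ∈ l, L.lb A = (true, b) ∧ L.lb B = (true, a) ∧
      ‖L.v A - L.v B‖ < C.ε) := by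
    constructor
    · rintro ⟨A, hA, B, hB, h1, h2, h3⟩
      exact ⟨B, hB, A, hA, h2, h1, by rwa [norm_sub_rev]⟩
    · rintro ⟨A, hA, B, hB, h1, h2, h3⟩
      exact ⟨B, hB, A, hA, h2, h1, by rwa [norm_sub_rev]⟩
  simp only [this]

variable (L) in
/-- the two-graph -/
noncomputable def sf (Z : List (List (S n))) (a b : Fin N) : ZMod 2 :=
  if a = b then 0 else cnt L Z (pl2 a b) (tau L a b)

lemma pl2_symm (a b : Fin N) : pl2 a b = pl2 b a := by
  funext i
  simp only [pl2, or_comm]

lemma sf_symm (Z : List (List (S n))) (a b : Fin N) : sf L Z a b = sf L Z b a := by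
  unfold sf
  by_cases h : a = b
  · rw [if_pos h, if_pos h.symm]
  · rw [if_neg h, if_neg (Ne.symm h), pl2_symm a b]
    exact cnt_congr fun l _ _ => tau_symm a b l

lemma lb_fst {A : S n} {x : Lb N} (h : L.lb A = x) : L.sg A = x.1 := congrArg Prod.fst h
lemma lb_snd {A : S n} {x : Lb N} (h : L.lb A = x) : C.c (L.v A) = x.2 := congrArg Prod.snd h

lemma vertex_list {l : List (S n)} {σ : Fin N → Bool}
    (h : (l.map L.lb : Multiset (Lb N)) = full σ) {a : Fin N} (ha : σ a = true) :
    ∃ A ∈ l, L.lb A = (true, a) := by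
  have : (true, a) ∈ (l.map L.lb : Multiset (Lb N)) := by
    rw [h, mem_full]; exact ha.symm
  have h2 : (true, a) ∈ l.map L.lb := by simpa using this
  obtain ⟨A, h1, h3⟩ := List.mem_map.1 h2
  exact ⟨A, h1, h3⟩

lemma wsum_list {l : List (S n)} {σ : Fin N → Bool}
    (h : (l.map L.lb : Multiset (Lb N)) = full σ) {a : Fin N} (g : S n → ZMod 2) {A : S n}
    (hA : A ∈ l) (hAl : L.lb A = (true, a)) : wsum L a g l = g A := by
  refine wsum_single L g ?_ (by simpa using hA) hAl
  have : (l : Multiset (S n)).map L.lb = (l.map L.lb : Multiset (Lb N)) := rfl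
  rw [this, h]
  exact full_nodup σ

lemma Fine.same {Z : List (List (S n))} (hZ : Fine L Z) {u u' : E n} (hu : ‖u‖ = 1)
    (hu' : ‖u'‖ = 1) (huu : ‖u - u'‖ < C.ε) (hc : C.c u = C.c u') : Gf L Z u = Gf L Z u' := by
  unfold Gf
  rw [hc]
  refine cnt_congr fun l hl hty => ?_
  obtain ⟨A, hA, hAl⟩ := vertex_list hty (a := C.c u') (by simp [pl])
  rw [wsum_list hty _ hA hAl, wsum_list hty _ hA hAl]
  have n1 := L.unit A (hZ.ne l hl A hA)
  have e3 := lb_snd hAl
  simp only at e3
  refine es_eq (ε := C.ε) (C.sep _ _ hu n1 (by rw [hc, e3])) (C.sep _ _ hu' n1 (by rw [e3])) ?_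
  have := inner_diff u u' (L.v A) (L.v A) n1 hu'
  rw [sub_self, norm_zero, add_zero] at this
  have hε := C.ε_pos
  linarith

lemma Fine.diff {Z : List (List (S n))} (hZ : Fine L Z) {u u' : E n} (hu : ‖u‖ = 1)
    (hu' : ‖u'‖ = 1) (huu : ‖u - u'‖ < C.ε) (hc : C.c u ≠ C.c u') :
    Gf L Z u + Gf L Z u' = sf L Z (C.c u) (C.c u') := by
  have h1 := hZ.door hc hu rfl
  have h2 := hZ.door hc.symm hu' rfl
  have e1 : Gf L Z u = cnt L Z (pl2 (C.c u) (C.c u'))
      (fun l => wsum L (C.c u) (fun A => es u (L.v A)) l) := h1.symm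
  have e2 : Gf L Z u' = cnt L Z (pl2 (C.c u) (C.c u'))
      (fun l => wsum L (C.c u') (fun A => es u' (L.v A)) l) := by
    rw [pl2_symm]; exact h2.symm
  rw [e1, e2, ← cnt_add]
  unfold sf
  rw [if_neg hc]
  refine cnt_congr fun l hl hty => ?_
  obtain ⟨A, hA, hAl⟩ := vertex_list hty (a := C.c u) (by simp [pl2])
  obtain ⟨B, hB, hBl⟩ := vertex_list hty (a := C.c u') (by simp [pl2])
  rw [wsum_list hty _ hA hAl, wsum_list hty _ hB hBl]
  have n1 := L.unit A (hZ.ne l hl A hA)
  have n2 := L.unit B (hZ.ne l hl B hB)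
  have e3 := lb_snd hAl
  have e4 := lb_snd hBl
  simp only at e3 e4
  have hε := C.ε_pos
  have s1 : C.ε < |⟪u, L.v A⟫| := C.sep _ _ hu n1 (by rw [e3])
  have s2 : C.ε < |⟪u', L.v B⟫| := C.sep _ _ hu' n2 (by rw [e4])
  have hcl := (hZ.close l hl (C.c u) (C.c u') (fun j h1 h2 => by
    have : (false, j) ∈ (l.map L.lb : Multiset (Lb N)) := by
      rw [hty, mem_full]; simp [pl2, h1, h2]
    simpa using this) A hA B hB (lb_fst hAl) (lb_fst hBl) (Or.inl e3) (Or.inr e4)).1
  by_cases hclose : ‖L.v A - L.v B‖ < C.ε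
  · have ht : tau L (C.c u) (C.c u') l = 0 := by
      unfold tau
      rw [if_pos ⟨A, hA, B, hB, hAl, hBl, hclose⟩]
    rw [ht]
    have : es u (L.v A) = es u' (L.v B) := by
      refine es_eq (ε := C.ε) s1 s2 ?_
      have := inner_diff u u' (L.v A) (L.v B) n1 hu'
      linarith
    rw [this]
    exact CharTwo.add_self_eq_zero _
  · have hclose2 : ‖L.v A - (-L.v B)‖ < C.ε := by
      rw [sub_neg_eq_add]
      exact hcl.resolve_left hclose
    have ht : tau L (C.c u) (C.c u') l = 1 := by
      unfold tau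
      rw [if_neg]
      rintro ⟨A', hA', B', hB', h1, h2, h3⟩
      -- uniqueness of the vertices: both give the same value of the sign
      have w1 := wsum_list hty (fun X => if ‖L.v X - L.v B‖ < C.ε then (1 : ZMod 2) else 0) hA hAl
      have w2 := wsum_list hty (fun X => if ‖L.v X - L.v B‖ < C.ε then (1 : ZMod 2) else 0) hA' h1
      have w3 := wsum_list hty (fun X => if ‖L.v A' - L.v X‖ < C.ε then (1 : ZMod 2) else 0) hB hBl
      have w4 := wsum_list hty (fun X => if ‖L.v A' - L.v X‖ < C.ε then (1 : ZMod 2) else 0) hB' h2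
      rw [if_neg hclose] at w1
      rw [if_pos h3] at w4
      rw [w4] at w3
      rw [w1] at w2
      by_cases hh : ‖L.v A' - L.v B‖ < C.ε
      · rw [if_pos hh] at w2
        exact absurd w2 (by decide)
      · rw [if_neg hh] at w3
        exact absurd w3 (by decide)
    rw [ht]
    have s2' : C.ε < |⟪u', -L.v B⟫| := by rw [inner_neg_right, abs_neg]; exact s2
    have h3 : es u (L.v A) = es u' (-L.v B) := by
      refine es_eq (ε := C.ε) s1 s2' ?_
      have := inner_diff u u' (L.v A) (-L.v B) n1 hu'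
      linarith
    rw [h3, es_neg_right hε s2]
    have : es u' (L.v B) + 1 + es u' (L.v B) = (es u' (L.v B) + es u' (L.v B)) + 1 := by ring
    rw [this, CharTwo.add_self_eq_zero, zero_add]

lemma Fine.anti {Z : List (List (S n))} (hZ : Fine L Z) {u : E n} (hu : ‖u‖ = 1) :
    Gf L Z (-u) = Gf L Z u + 1 := by
  classical
  have h1 : cnt L Z (pl (C.c u)) (fun _ => 1) = 1 := by
    have := hZ.odd (pl (C.c u))
    unfold cnt
    convert this using 3
  unfold Gf
  rw [C.even u hu]
  rw [← h1, ← cnt_add]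
  refine cnt_congr fun l hl hty => ?_
  obtain ⟨A, hA, hAl⟩ := vertex_list hty (a := C.c u) (by simp [pl])
  rw [wsum_list hty _ hA hAl, wsum_list hty _ hA hAl]
  have n1 := L.unit A (hZ.ne l hl A hA)
  have e3 := lb_snd hAl
  simp only at e3
  exact es_neg_left C.ε_pos (C.sep _ _ hu n1 (by rw [e3]))

/-- the key lemma from a fine cycle -/
theorem Fine.key {Z : List (List (S n))} (hZ : Fine L Z) : Nonempty (Key C) := by
  refine ⟨⟨Gf L Z, sf L Z, C.ε, C.ε_pos, ?_, sf_symm Z, fun u hu => hZ.anti hu, ?_⟩⟩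
  · intro a
    unfold sf
    rw [if_pos rfl]
  · intro u u' hu hu' huu
    by_cases hc : C.c u = C.c u'
    · rw [hZ.same hu hu' huu hc, hc]
      unfold sf
      rw [if_pos rfl]
      exact CharTwo.add_self_eq_zero _
    · exact hZ.diff hu hu' huu hc

end key

end P052D
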